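import Vale.Agent.P092.H34.Trn
import Vale.Agent.P092.H34.Grp
import Vale.Agent.P092.H295.Trl
import Vale.Agent.P092.H943.ProdEnd

/-!
P092, [MIX] (R-LIFT) (helper232): a calculus `P` of `C₀(T)` on the fibre which is covariant under
`V` through a continuous homomorphism `t : E → T` of the source group, lifted to the induced
picture: `Q ψ` is the decomposable operator with the equivariant field `h ↦ P (ψ (· t(h)⁻¹))`.
-/

set_option linter.all false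

open scoped InnerProductSpace ENNReal ZeroAtInfty
open MeasureTheory Filter Topology ContinuousLinearMap

namespace Vale.Agent.P092.H232.Mx

open Vale.Agent.P092.H790 Vale.Agent.P092.H85 Vale.Agent.P092.H160 Vale.Agent.P092.H103
  Vale.Agent.P092.H34 Vale.Agent.P092.H34.Ind Vale.Agent.P092.H34.Grp
open Vale.Agent.P092.H295 (ltr rtr ltr_apply rtr_apply ltr_rtr norm_map_le_norm continuous_map
  norm_le_of_forall norm_apply_le_norm exists_nhds_right)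
open Vale.Agent.P092.RC (Cm)
open Vale.Agent.P092.H943 (FLeg)

section trl

variable {T : Type*} [Group T] [TopologicalSpace T] [IsTopologicalGroup T]

theorem continuous_rtr (c : C₀(T, ℂ)) : Continuous (fun g : T => rtr g c) := by
  rw [continuous_iff_continuousAt]
  intro g₀
  rw [ContinuousAt, Metric.tendsto_nhds]
  intro ε hε
  obtain ⟨V, hV, hVs⟩ := exists_nhds_right c (half_pos hε)
  have h1 : Tendsto (fun g : T => g₀⁻¹ * g) (𝓝 g₀) (𝓝 (1 : T)) := by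
    have : Continuous fun g : T => g₀⁻¹ * g := by fun_prop
    simpa using this.tendsto g₀
  filter_upwards [h1 hV] with g hg
  rw [dist_eq_norm]
  refine lt_of_le_of_lt (norm_le_of_forall (half_pos hε).le fun x => ?_) (half_lt_self hε)
  have h2 := hVs _ hg (x * g₀)
  have h3 : x * g₀ * (g₀⁻¹ * g) = x * g := by group
  rw [h3] at h2
  exact h2.le

theorem norm_rtr_le (g : T) (c : C₀(T, ℂ)) : ‖rtr g c‖ ≤ ‖c‖ :=
  norm_le_of_forall (norm_nonneg _) fun x => norm_apply_le_norm c _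

theorem rtr_mul (g h : T) (c : C₀(T, ℂ)) : rtr (g * h) c = rtr g (rtr h c) := by
  ext x; simp [mul_assoc]

/-- an approximate unit -/
theorem exists_unit [LocallyCompactSpace T] [SecondCountableTopology T] [T2Space T] :
    ∃ u : ℕ → C₀(T, ℂ), (∀ n x, ‖1 - u n x‖ ≤ 1) ∧
      ∀ C : Set T, IsCompact C → ∀ᶠ n in atTop, ∀ x ∈ C, u n x = 1 := by
  have h : ∀ n : ℕ, ∃ f : C₀(T, ℂ), (∀ x, ‖1 - f x‖ ≤ 1) ∧
      ∀ x ∈ CompactExhaustion.choice T n, f x = 1 := by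
    intro n
    obtain ⟨f, h1, -, h3, h4⟩ := exists_continuous_one_zero_of_isCompact
      ((CompactExhaustion.choice T).isCompact n) (t := ∅) isClosed_empty
      (Set.disjoint_empty _)
    refine ⟨⟨⟨fun x => (f x : ℂ), Complex.continuous_ofReal.comp f.continuous⟩, ?_⟩, ?_, ?_⟩
    · have h5 : HasCompactSupport fun x => (f x : ℂ) := h3.comp_left Complex.ofReal_zero
      exact h5.is_zero_at_infty
    · intro x
      change ‖(1 : ℂ) - (f x : ℂ)‖ ≤ 1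
      rw [← Complex.ofReal_one, ← Complex.ofReal_sub, Complex.norm_real, Real.norm_eq_abs,
        abs_of_nonneg (by linarith [(h4 x).2])]
      linarith [(h4 x).1]
    · intro x hx
      change (f x : ℂ) = 1
      rw [h1 hx]
      simp
  choose u hu1 hu2 using h
  refine ⟨u, hu1, fun C hC => ?_⟩
  obtain ⟨n₀, hn₀⟩ := (CompactExhaustion.choice T).exists_superset_of_isCompact hC
  filter_upwards [eventually_ge_atTop n₀] with n hn x hx
  exact hu2 n x ((CompactExhaustion.choice T).subset hn (hn₀ hx))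

variable {ℋ : Type*} [NormedAddCommGroup ℋ] [InnerProductSpace ℂ ℋ] [CompleteSpace ℋ]
  (P : C₀(T, ℂ) →⋆ₙₐ[ℂ] (ℋ →L[ℂ] ℋ))

/-- a translated approximate unit detects nonzero vectors -/
theorem nd_unit (nd : ∀ v, (∀ ψ, P ψ v = 0) → v = 0) {u : ℕ → C₀(T, ℂ)}
    (h1 : ∀ n x, ‖1 - u n x‖ ≤ 1)
    (h2 : ∀ C : Set T, IsCompact C → ∀ᶠ n in atTop, ∀ x ∈ C, u n x = 1) (g : T) {v : ℋ}
    (hv : ∀ n, P (rtr g (u n)) v = 0) : v = 0 := by
  refine nd v fun ψ => ?_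
  rw [← norm_le_zero_iff]
  refine le_of_forall_pos_le_add fun ε hε => ?_
  rw [zero_add]
  obtain ⟨δ, hδ, hδε⟩ : ∃ δ > 0, δ * ‖v‖ ≤ ε := by
    refine ⟨ε / (‖v‖ + 1), by positivity, ?_⟩
    rw [div_mul_eq_mul_div, div_le_iff₀ (by positivity)]
    nlinarith [norm_nonneg v]
  have h3 : ∀ᶠ x in cocompact T, ‖ψ x‖ < δ := by
    have := (ψ.zero_at_infty').norm
    rw [norm_zero] at this
    exact this.eventually (gt_mem_nhds hδ)
  obtain ⟨C, hC, hCψ⟩ := mem_cocompact.1 h3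
  obtain ⟨n, hn⟩ := (h2 ((fun x => x * g) '' C) (hC.image (continuous_mul_right g))).exists
  have e : P ψ v = P (ψ - ψ * rtr g (u n)) v := by
    rw [map_sub, map_mul, ContinuousLinearMap.sub_apply, ContinuousLinearMap.mul_apply, hv,
      map_zero, sub_zero]
  rw [e]
  refine (ContinuousLinearMap.le_opNorm _ _).trans (le_trans ?_ hδε)
  refine mul_le_mul_of_nonneg_right ((norm_map_le_norm P _).trans ?_) (norm_nonneg _)
  refine norm_le_of_forall hδ.le fun x => ?_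
  have e2 : (ψ - ψ * rtr g (u n)) x = ψ x * (1 - u n (x * g)) := by
    simp [mul_sub]
  rw [e2, norm_mul]
  by_cases hx : x ∈ C
  · rw [hn _ ⟨x, hx, rfl⟩]
    simpa using hδ.le
  · have h4 : ‖ψ x‖ < δ := hCψ hx
    nlinarith [h1 n (x * g), norm_nonneg (ψ x), norm_nonneg (1 - u n (x * g))]

end trl

section lift

variable {E : Type} [Group E] [TopologicalSpace E] [IsTopologicalGroup E] [LocallyCompactSpace E]
  [SecondCountableTopology E] [T2Space E] [MeasurableSpace E] [BorelSpace E]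
  {Γ : Subgroup E} [DiscreteTopology Γ] [MeasurableSpace (E ⧸ Γ)]
  [BorelSpace (E ⧸ Γ)] {ν : Measure (E ⧸ Γ)}
  {ℋ : Type} [NormedAddCommGroup ℋ] [InnerProductSpace ℂ ℋ] [CompleteSpace ℋ]
  {V : Γ →* (ℋ →L[ℂ] ℋ)} (hV : ∀ v, adjoint (V v) = V v⁻¹)
  {T : Type} [Group T] [TopologicalSpace T] [IsTopologicalGroup T]
  {t : E →* T} (ht : Continuous t) (P : C₀(T, ℂ) →⋆ₙₐ[ℂ] (ℋ →L[ℂ] ℋ))

/-- the equivariant field of the lifted operator -/
noncomputable def qf (t : E →* T) (P : C₀(T, ℂ) →⋆ₙₐ[ℂ] (ℋ →L[ℂ] ℋ)) (ψ : C₀(T, ℂ)) (h : E) :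
    ℋ →L[ℂ] ℋ := P (rtr (t h)⁻¹ ψ)

omit [TopologicalSpace E] [IsTopologicalGroup E] [LocallyCompactSpace E]
  [SecondCountableTopology E] [T2Space E] [MeasurableSpace E] [BorelSpace E] in
theorem norm_qf_le (ψ : C₀(T, ℂ)) (h : E) : ‖qf t P ψ h‖ ≤ ‖ψ‖ :=
  (norm_map_le_norm P _).trans (norm_rtr_le _ _)

include ht in
theorem qf_cont (ψ : C₀(T, ℂ)) (u : ℋ) : Continuous fun h => qf t P ψ h u := by
  have h1 : Continuous fun h : E => P (rtr (t h)⁻¹ ψ) :=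
    (continuous_map P).comp ((continuous_rtr ψ).comp ht.inv)
  exact h1.clm_apply continuous_const

include ht in
theorem qf_sm (ψ : C₀(T, ℂ)) (u : ℋ) : StronglyMeasurable fun h => qf t P ψ h u :=
  (qf_cont ht P ψ u).stronglyMeasurable

include ht in
theorem qf_aesm (ψ : C₀(T, ℂ)) (u : ℋ) :
    AEStronglyMeasurable (fun x : E ⧸ Γ => qf t P ψ (sec Γ x) u) ν :=
  ((qf_sm ht P ψ u).comp_measurable (sec_meas Γ)).aestronglyMeasurable

include ht in
theorem fld_qf (ψ : C₀(T, ℂ)) : Fld (fop ν fun x : E ⧸ Γ => qf t P ψ (sec Γ x))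
    fun x => qf t P ψ (sec Γ x) :=
  fop_spec (fun u => qf_aesm ht P ψ u) fun x => norm_qf_le P ψ _

/-- **the lift** -/
noncomputable def lift (Γ : Subgroup E) [DiscreteTopology Γ] [MeasurableSpace (E ⧸ Γ)]
    [BorelSpace (E ⧸ Γ)] (ν : Measure (E ⧸ Γ)) {t : E →* T} (ht : Continuous t)
    (P : C₀(T, ℂ) →⋆ₙₐ[ℂ] (ℋ →L[ℂ] ℋ)) :
    C₀(T, ℂ) →⋆ₙₐ[ℂ] (Lp ℋ 2 ν →L[ℂ] Lp ℋ 2 ν) where
  toFun ψ := fop ν fun x : E ⧸ Γ => qf t P ψ (sec Γ x)
  map_smul' c ψ := by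
    refine (fld_qf ht P (c • ψ)).ext ((fld_qf ht P ψ).smul c) (Eventually.of_forall fun x => ?_)
    change P (rtr _ (c • ψ)) = c • P (rtr _ ψ)
    rw [← map_smul]
    rfl
  map_zero' := by
    refine (fld_qf ht P 0).ext fld_zero (Eventually.of_forall fun x => ?_)
    change P (rtr _ 0) = 0
    have e : rtr (t (sec Γ x))⁻¹ (0 : C₀(T, ℂ)) = 0 := rfl
    rw [e, map_zero]
  map_add' ψ φ := by
    refine (fld_qf ht P (ψ + φ)).ext ((fld_qf ht P ψ).add (fld_qf ht P φ))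
      (Eventually.of_forall fun x => ?_)
    change P (rtr _ (ψ + φ)) = P (rtr _ ψ) + P (rtr _ φ)
    rw [← map_add]
    rfl
  map_mul' ψ φ := by
    refine (fld_qf ht P (ψ * φ)).ext ((fld_qf ht P ψ).mul (fld_qf ht P φ))
      (Eventually.of_forall fun x => ?_)
    change P (rtr _ (ψ * φ)) = P (rtr _ ψ) * P (rtr _ φ)
    rw [← map_mul]
    rfl
  map_star' ψ := by
    refine (Fld.adjoint (fld_qf ht P ψ) (fld_qf ht P (star ψ))
      (Eventually.of_forall fun x => ?_)).symm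
    change P (rtr _ (star ψ)) = star (P (rtr _ ψ))
    rw [← map_star]
    rfl

theorem fld_lift (ψ : C₀(T, ℂ)) : Fld (lift Γ ν ht P ψ) fun x => qf t P ψ (sec Γ x) :=
  fld_qf ht P ψ

/-- covariance under `V` -/
def CovV (V : Γ →* (ℋ →L[ℂ] ℋ)) (t : E →* T) (P : C₀(T, ℂ) →⋆ₙₐ[ℂ] (ℋ →L[ℂ] ℋ)) : Prop :=
  ∀ (v : Γ) (ψ ψ' : C₀(T, ℂ)), (∀ y, ψ' y = ψ (y * t v)) → V v * P ψ * V v⁻¹ = P ψ'

theorem gf_lift (hc : CovV V t P) (ψ : C₀(T, ℂ)) : GF ν V (lift Γ ν ht P ψ) (qf t P ψ) where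
  fld := fld_lift ht P ψ
  equi h v := by
    have h1 := hc v⁻¹ (rtr (t h)⁻¹ ψ) (rtr (t (h * v))⁻¹ ψ) fun y => by
      have e : t (h * (v : E)) = t h * t v := map_mul t _ _
      have e' : t ((v⁻¹ : Γ) : E) = (t v)⁻¹ := by rw [Subgroup.coe_inv, map_inv]
      rw [rtr_apply, rtr_apply, e, e', mul_inv_rev, mul_assoc]
    rw [inv_inv] at h1
    exact h1.symm
  meas u := (qf_sm ht P ψ u).aestronglyMeasurable

theorem nd_lift [LocallyCompactSpace T] [SecondCountableTopology T] [T2Space T]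
    (nd : ∀ v, (∀ ψ, P ψ v = 0) → v = 0) (ξ : Lp ℋ 2 ν)
    (hξ : ∀ ψ, lift Γ ν ht P ψ ξ = 0) : ξ = 0 := by
  obtain ⟨u, hu1, hu2⟩ := exists_unit (T := T)
  refine Lp.ext ?_
  have h1 : ∀ᵐ x ∂ν, ∀ n, P (rtr (t (sec Γ x))⁻¹ (u n)) (ξ x) = 0 := by
    rw [ae_all_iff]
    intro n
    have h2 := fld_lift (ν := ν) ht P (u n) ξ
    rw [hξ] at h2
    filter_upwards [h2, Lp.coeFn_zero ℋ 2 ν] with x a1 a2
    change qf t P (u n) (sec Γ x) (ξ x) = 0
    rw [← a1, a2]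
    rfl
  filter_upwards [h1, Lp.coeFn_zero ℋ 2 ν] with x hx h0
  rw [h0]
  exact nd_unit P nd hu1 hu2 _ hx

variable [Countable Γ] [IsProbabilityMeasure ν] (hν : ∀ g : E, ν.map (fun x => g • x) = ν)

/-- the lift, in the letters of the picture -/
noncomputable def liftD {t : E →* T} (ht : Continuous t)
    (P : C₀(T, ℂ) →⋆ₙₐ[ℂ] (ℋ →L[ℂ] ℋ)) : C₀(T, ℂ) →⋆ₙₐ[ℂ]
      (Lp ℋ 2 (cdat ν hν).μ →L[ℂ] Lp ℋ 2 (cdat ν hν).μ) := lift Γ ν ht P

theorem pi_lift (hc : CovV V t P) (g : E) (ψ ψ' : C₀(T, ℂ)) (h : ∀ y, ψ' y = ψ (y * t g)) :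
    H34.Ind.pi (cdat ν hν) hV g * liftD hν ht P ψ * H34.Ind.pi (cdat ν hν) hV g⁻¹ =
      liftD hν ht P ψ' := by
  refine GF.ext hν ((gf_lift (ν := ν) ht P hc ψ).left hν hV g) (gf_lift ht P hc ψ')
    (Eventually.of_forall fun x => ?_)
  change P (rtr (t (g⁻¹ * x))⁻¹ ψ) = P (rtr (t x)⁻¹ ψ')
  congr 1
  ext y
  have e : (t (g⁻¹ * x))⁻¹ = (t x)⁻¹ * t g := by
    rw [map_mul, map_inv, mul_inv_rev, inv_inv]
  rw [rtr_apply, rtr_apply, h, e, mul_assoc]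

/-- **(R-LIFT)**: the leg of the induced picture -/
theorem fleg_lift [LocallyCompactSpace T] [SecondCountableTopology T] [T2Space T]
    {Δ : Type} [Group Δ] {R S : Δ →* (ℋ →L[ℂ] ℋ)} {p : Δ →* T}
    (nd : ∀ v, (∀ ψ, P ψ v = 0) → v = 0)
    (hS : ∀ γ ψ, Commute (P ψ) (S γ))
    (hR : ∀ (γ : Δ) (ψ ψ' : C₀(T, ℂ)), (∀ x, ψ' x = ψ ((p γ)⁻¹ * x)) →
      R γ * P ψ * R γ⁻¹ = P ψ')
    (hc : CovV V t P) :
    FLeg (H34.Ind.pi (cdat ν hν) hV) (H34.Ind.lam (cdat ν hν) R)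
      (H34.Ind.Xset (cdat ν hν) ℋ ∪ Set.range (H34.Ind.lam (cdat ν hν) S)) p
      (liftD hν ht P) where
  nd ξ hξ := nd_lift (ν := ν) ht P nd ξ hξ
  cm ψ := by
    rintro w (⟨A, hA, rfl⟩ | ⟨γ, rfl⟩)
    · exact (fld_lift (ν := ν) ht P ψ).ind hA
    · refine ((fld_lift (ν := ν) ht P ψ).mul (fld_comp (S γ))).ext
        ((fld_comp (S γ)).mul (fld_lift (ν := ν) ht P ψ)) (Eventually.of_forall fun x => ?_)
      exact hS γ _
  cov γ ψ ψ' h := by
    refine (((fld_comp (R γ)).mul (fld_lift (ν := ν) ht P ψ)).mul (fld_comp (R γ⁻¹))).ext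
      (fld_lift (ν := ν) ht P ψ') (Eventually.of_forall fun x => ?_)
    refine hR γ _ _ fun y => ?_
    rw [rtr_apply, rtr_apply, h, mul_assoc]
  pcov g := ⟨t g, fun ψ ψ' h => pi_lift hV ht P hν hc g ψ ψ' h⟩

/-- the elements over which `t` is trivial act trivially -/
theorem pc_lift (hc : CovV V t P) {g : E} (hg : t g = 1) (ψ : C₀(T, ℂ)) :
    Commute (H34.Ind.pi (cdat ν hν) hV g) (liftD hν ht P ψ) := by
  have h1 := pi_lift hV ht P hν hc g ψ ψ fun y => by rw [hg, mul_one]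
  have h2 : H34.Ind.pi (cdat ν hν) hV g⁻¹ * H34.Ind.pi (cdat ν hν) hV g = 1 := by
    rw [← map_mul, inv_mul_cancel, map_one]
  change H34.Ind.pi (cdat ν hν) hV g * liftD hν ht P ψ =
    liftD hν ht P ψ * H34.Ind.pi (cdat ν hν) hV g
  calc H34.Ind.pi (cdat ν hν) hV g * liftD hν ht P ψ
      = H34.Ind.pi (cdat ν hν) hV g * liftD hν ht P ψ *
        (H34.Ind.pi (cdat ν hν) hV g⁻¹ * H34.Ind.pi (cdat ν hν) hV g) := by rw [h2, mul_one]
    _ = _ := by rw [← mul_assoc, h1]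

/-- commutation of two lifts -/
theorem comm_lift {T' : Type} [Group T'] [TopologicalSpace T'] [IsTopologicalGroup T']
    {t' : E →* T'} (ht' : Continuous t') (P' : C₀(T', ℂ) →⋆ₙₐ[ℂ] (ℋ →L[ℂ] ℋ))
    (h : ∀ ψ φ, Commute (P ψ) (P' φ)) (ψ : C₀(T, ℂ)) (φ : C₀(T', ℂ)) :
    Commute (liftD hν ht P ψ) (liftD hν ht' P' φ) :=
  ((fld_lift (ν := ν) ht P ψ).mul (fld_lift (ν := ν) ht' P' φ)).ext
    ((fld_lift (ν := ν) ht' P' φ).mul (fld_lift (ν := ν) ht P ψ))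
    (Eventually.of_forall fun x => h _ _)

end lift

end Vale.Agent.P092.H232.Mx
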